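import Crest.Agent.R246.Skel2_656
import Crest.Agent.R246.ResData_797
import Crest.Agent.R246.StFam_348
import Crest.Agent.R246.C9_378
import Crest.Agent.R246.Bl2_873
import Crest.Agent.R246.GlueReg_549
import Crest.Agent.R246.Reg_549
import Crest.Agent.R246.Mg6_295
import Crest.Agent.R246.Eqb_718
import Crest.Agent.R246.HK5_149
import Crest.Agent.R246.MSAll_852
import Crest.Agent.R246.H1_105
import Crest.Agent.R246.StH2c_622
import Crest.Agent.R246.GlueEnd_196
import Crest.Agent.R246.Q_538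
import Crest.Agent.R246.Dich4_67
import Crest.Agent.R246.Flatx5_992
import Crest.Agent.R246.StNC_475
import Crest.Agent.R246.StE_858
import Crest.Agent.R246.StIdx_656
import Crest.Agent.R246.StJ_364

/-!
# Row 246: closing the fields of `Skel2.Inputs` (helper656, integration)

`inputs` = all inputs of the induction; `final` = the statement of S0380.
-/

set_option autoImplicit false
open scoped ContDiff Manifold Topology
open Bundle Crest.GeometryTopology.CoordMetric Crest.GeometryTopology.ChartCurvature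
  Crest.GeometryTopology.SphereImmersion
open MeasureTheory Filter Metric Set
open Crest.Agent.R246.Skel656 Crest.Agent.R246.Skel2
open Crest.Agent.R246.MS852 (StMS)

noncomputable section

namespace Crest.Agent.R246.Fin656

/-- **H2** (295 H2a, 622 H2b and H2c, 549). -/
theorem stH2 (m : ℕ) : StH2 m := by
  intro φ _ hD _ p _ hp0 ρ hρ C hE
  have : Nontrivial (E m) := by
    apply Module.nontrivial_of_finrank_pos (R := ℝ)
    simp [E]
  exact Reg549.good_of_expn (Mg295.stH2a (E m)) (fun e _ => H2x622.stH2c (ℝ ∙ e)ᗮ) hD hp0 hρ (by norm_num) (by norm_num) hE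

/-- **all inputs are theorems** -/
theorem inputs {m : ℕ} (hm : 2 ≤ m) : Inputs m where
  fam := StFam348.stFam (by omega)
  mm := Zon797.stMM m (by omega)
  e := StE858.stE hm
  dich := Dich67.stDich (by omega)
  flat := Flatx992.stFlat (by omega) (MS852.stMS _ (m + 1))
  eqp := Lim538.stEqp (by omega)
  g := G873.stG (E m) (E (m - 1))
  br := GlueReg549.stBr (by omega) (MS852.stMS (E m) (m + 1))
  h1 := H1x105.stH1 m
  h2 := stH2 m
  sm := GlueEnd196.stSM (by omega)
  idx := StIdx656.stIdx (by omega)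
  nc := StNC475.stNC (by omega)
  eqb := NC718.stEqb m
  hk := HK149.stHK hm

/-- **S0380**: the Solomon-Yau conjecture. -/
theorem final
    (m : ℕ) (hm : 2 ≤ m)
    (M : Type*) [MetricSpace M] [ChartedSpace (EuclideanSpace ℝ (Fin m)) M]
    [IsManifold 𝓘(ℝ, EuclideanSpace ℝ (Fin m)) ∞ M] [CompactSpace M] [ConnectedSpace M]
    [RiemannianBundle (fun x : M => TangentSpace 𝓘(ℝ, EuclideanSpace ℝ (Fin m)) x)]
    [IsContMDiffRiemannianBundle 𝓘(ℝ, EuclideanSpace ℝ (Fin m)) ∞ (EuclideanSpace ℝ (Fin m))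
      (fun x : M => TangentSpace 𝓘(ℝ, EuclideanSpace ℝ (Fin m)) x)]
    [IsRiemannianManifold 𝓘(ℝ, EuclideanSpace ℝ (Fin m)) M] [MeasurableSpace M] [BorelSpace M]
    (F : M → EuclideanSpace ℝ (Fin (m + 2)))
    (hF : ContMDiff 𝓘(ℝ, EuclideanSpace ℝ (Fin m)) 𝓘(ℝ, EuclideanSpace ℝ (Fin (m + 2))) ∞ F)
    (hS : ∀ x, ‖F x‖ = 1) (hiso : IsIsometricMap m (m + 2) M F)
    (hmin : IsMinimalInSphere m (m + 2) M F) (hntg : ¬ IsTotallyGeodesicInSphere m (m + 2) M F) :
    ∃ k : ℕ, 1 ≤ k ∧ k < m ∧
      ENNReal.ofReal (cliffordVolume m k) ≤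
        MeasureTheory.Measure.euclideanHausdorffMeasure m (Set.univ : Set M) :=
  top1 hm (all_Tm C378.stC_final (fun _ hn => inputs hn) m (by omega))
    (JE364.stJ m hm) M F hF hS hiso hmin hntg

end Crest.Agent.R246.Fin656
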